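import Vale.Agent.P060.Final

namespace Vale.Agent.Results.P060.Counterexample

open Vale.Agent.P060

theorem result :
    (¬ ∀ (m : ℕ) (G : SimpleGraph (Fin m)) (t : ℕ), 1 ≤ m → 1 ≤ t → ¬ HasKMinor G (t + 1) →
        G.Colorable t) ∧
      ∀ m₀ : ℕ, ∃ m : ℕ, m₀ ≤ m ∧ 1 ≤ m ∧ ∃ G : SimpleGraph (Fin m), G.IndepSetFree 3 ∧
        (∀ k, HasConnMatching G k → 100 * k < m) ∧
        (∀ t, HasKMinor G t → 75 * t < 26 * m) ∧
        (∀ t, G.Colorable t → m ≤ 2 * t) := by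
  have key : ∀ m₀ : ℕ, ∃ m : ℕ, m₀ ≤ m ∧ 1 ≤ m ∧ ∃ G : SimpleGraph (Fin m), G.IndepSetFree 3 ∧
      (∀ k, HasConnMatching G k → 100 * k < m) ∧ (∀ t, HasKMinor G t → 75 * t < 26 * m) ∧
      (∀ t, G.Colorable t → m ≤ 2 * t) := by
    intro m₀
    obtain ⟨n, hn0, hn, G, h1, h2⟩ := exists_graph m₀
    refine ⟨100 * n, by omega, by omega, G, h1, ?_, ?_, fun t ht => color_bound G h1 ht⟩
    · rintro k ⟨e, he, h3, h4⟩
      by_contra hk
      have hnk : n ≤ k := by omega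
      refine h2 ⟨fun x => e (Fin.castLE hnk x.1, x.2), ?_, fun i => h3 _, fun i j hij => ?_⟩
      · intro x y hxy
        have := he hxy
        simp only [Prod.mk.injEq, Fin.castLE_inj] at this
        exact Prod.ext this.1 this.2
      · exact h4 _ _ (fun h => hij (Fin.castLE_inj.1 h))
    · intro t ht
      have := minor_bound G h2 ht
      omega
  refine ⟨fun h => ?_, key⟩
  obtain ⟨m, hm, hm1, G, _, _, h3, h4⟩ := key 100
  have h5 := h m G (26 * m / 75) hm1 (by omega) (fun ht => by have := h3 _ ht; omega)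
  have := h4 _ h5
  omega

end Vale.Agent.Results.P060.Counterexample
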